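import Mathlib

namespace Vale.Agent.Lib.P160

open Finset

section Counting

variable {P : Type*} [Fintype P] [DecidableEq P]

/-- If the members of `S` are determined by their values off `T`, then
`|S| * 2^|T| ≤ 2^|P|`. -/
lemma card_mul_le_of_determined (S : Finset (P → ℤˣ)) (T : Finset P)
    (h : ∀ g ∈ S, ∀ g' ∈ S, (∀ p, p ∉ T → g p = g' p) → g = g') :
    S.card * 2 ^ T.card ≤ 2 ^ Fintype.card P := by
  have h1 : S.card ≤ Fintype.card ({p // p ∉ T} → ℤˣ) := by
    rw [← Finset.card_univ]
    apply Finset.card_le_card_of_injOn (fun g => fun p : {p // p ∉ T} => g p.1)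
    · intro g _
      exact Finset.mem_coe.mpr (Finset.mem_univ _)
    · intro g hg g' hg' heq
      apply h g hg g' hg'
      intro p hp
      exact congrFun heq ⟨p, hp⟩
  rw [Fintype.card_fun, Fintype.card_units_int] at h1
  have h2 : Fintype.card {p // p ∉ T} = Fintype.card P - T.card := by
    rw [Fintype.card_subtype_compl (· ∈ T), Fintype.card_coe]
  rw [h2] at h1
  calc S.card * 2 ^ T.card ≤ 2 ^ (Fintype.card P - T.card) * 2 ^ T.card := by gcongr
    _ = 2 ^ Fintype.card P := by
      rw [← pow_add, Nat.sub_add_cancel (Finset.card_le_univ T)]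

/-- If every `g` can be modified on `T` only so as to land in `S`, then
`2^|P| ≤ |S| * 2^|T|`. -/
lemma le_card_mul_of_retract (S : Finset (P → ℤˣ)) (T : Finset P)
    (Ψ : (P → ℤˣ) → (P → ℤˣ)) (hS : ∀ g, Ψ g ∈ S)
    (hT : ∀ g p, p ∉ T → Ψ g p = g p) :
    2 ^ Fintype.card P ≤ S.card * 2 ^ T.card := by
  have h1 : Fintype.card (P → ℤˣ)
      ≤ (S ×ˢ (Finset.univ : Finset ({p // p ∈ T} → ℤˣ))).card := by
    rw [← Finset.card_univ]
    apply Finset.card_le_card_of_injOn (fun g => (Ψ g, fun p : {p // p ∈ T} => g p.1))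
    · intro g _
      simp [hS g]
    · intro g _ g' _ heq
      simp only [Prod.mk.injEq] at heq
      funext p
      by_cases hp : p ∈ T
      · exact congrFun heq.2 ⟨p, hp⟩
      · rw [← hT g p hp, ← hT g' p hp, heq.1]
  rw [Finset.card_product, Finset.card_univ, Fintype.card_fun, Fintype.card_fun,
    Fintype.card_units_int, Fintype.card_coe] at h1
  exact h1

end Counting

/-- A Bonferroni-type lower bound for the size of a union with uniform bounds. -/
lemma bonferroni_uniform {ι α : Type*} [DecidableEq ι] [DecidableEq α]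
    (F : ι → Finset α) (A B : ℚ) (I : Finset ι)
    (hA : ∀ a ∈ I, A ≤ ((F a).card : ℚ))
    (hB : ∀ a ∈ I, ∀ b ∈ I, a ≠ b → (((F a ∩ F b).card : ℕ) : ℚ) ≤ B) :
    A * I.card ≤ ((I.biUnion F).card : ℚ) + B * (I.card.choose 2 : ℚ) := by
  induction I using Finset.induction_on with
  | empty => simp
  | insert c I hc ih =>
    have ih' := ih (fun a ha => hA a (Finset.mem_insert_of_mem ha))
      (fun a ha b hb hab => hB a (Finset.mem_insert_of_mem ha) b (Finset.mem_insert_of_mem hb) hab)
    rw [Finset.biUnion_insert, Finset.card_insert_of_notMem hc]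
    have h1 : ((F c ∪ I.biUnion F).card : ℚ) + ((F c ∩ I.biUnion F).card : ℚ)
        = ((F c).card : ℚ) + ((I.biUnion F).card : ℚ) := by
      exact_mod_cast Finset.card_union_add_card_inter (F c) (I.biUnion F)
    have h2 : ((F c ∩ I.biUnion F).card : ℚ) ≤ B * I.card := by
      have e : F c ∩ I.biUnion F = I.biUnion (fun a => F c ∩ F a) := by
        rw [Finset.inter_biUnion]
      rw [e]
      calc ((I.biUnion (fun a => F c ∩ F a)).card : ℚ)
          ≤ ((∑ a ∈ I, (F c ∩ F a).card : ℕ) : ℚ) := by
            exact_mod_cast Finset.card_biUnion_le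
        _ = ∑ a ∈ I, ((F c ∩ F a).card : ℚ) := by push_cast; rfl
        _ ≤ ∑ _a ∈ I, B := by
            apply Finset.sum_le_sum
            intro a ha
            apply hB c (Finset.mem_insert_self c I) a (Finset.mem_insert_of_mem ha)
            rintro rfl
            exact hc ha
        _ = B * I.card := by rw [Finset.sum_const, nsmul_eq_mul, mul_comm]
    have h3 : A ≤ ((F c).card : ℚ) := hA c (Finset.mem_insert_self c I)
    have h4 : (((I.card + 1).choose 2 : ℕ) : ℚ) = (I.card.choose 2 : ℚ) + I.card := by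
      rw [Nat.choose_succ_succ' I.card 1, Nat.choose_one_right]
      push_cast
      ring
    rw [h4]
    push_cast
    nlinarith

end Vale.Agent.Lib.P160
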