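import Mathlib

namespace Vale.Agent.Lib.P160

/-- The symmetric `n × n` sign matrix determined by a choice `g` of a sign for every
unordered pair `s(i, j)` of indices (`i = j` allowed): its `(i, j)` entry is `g s(i, j)`. -/
def signMatrix (n : ℕ) (g : Sym2 (Fin n) → ℤˣ) : Matrix (Fin n) (Fin n) ℤ :=
  Matrix.of (fun i j => ((g s(i, j) : ℤˣ) : ℤ))

/-- The singularity probability `q_n`: the fraction of all sign choices `g` (the entries on
and above the diagonal are independent and uniform on `{-1, 1}`) whose symmetric sign matrix
has determinant zero. -/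
noncomputable def singProb (n : ℕ) : ℚ :=
  ((Finset.univ.filter
      (fun g : Sym2 (Fin n) → ℤˣ => (signMatrix n g).det = 0)).card : ℚ)
    / (Fintype.card (Sym2 (Fin n) → ℤˣ) : ℚ)

end Vale.Agent.Lib.P160
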