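import Vale.Agent.Lib.P160.Pairs

namespace Vale.Agent.Lib.P160

open Finset

variable {n : ℕ}

/-- The event attached to an unordered pair of row indices. -/
noncomputable def pairSet (z : Sym2 (Fin n)) : Finset (Sym2 (Fin n) → ℤˣ) :=
  Sym2.lift ⟨fun i j => parSet i j, parSet_comm⟩ z

lemma pairSet_mk (a b : Fin n) : pairSet s(a, b) = parSet a b := rfl

lemma card_pairSet_ge {z : Sym2 (Fin n)} (hz : ¬ z.IsDiag) :
    (2 : ℚ) * 2 ^ Fintype.card (Sym2 (Fin n)) / 2 ^ n ≤ ((pairSet z).card : ℚ) := by
  induction z using Sym2.ind with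
  | _ a b =>
    rw [Sym2.mk_isDiag_iff] at hz
    rw [pairSet_mk]
    have h := two_pow_le_card_parSet hz
    have hn : 1 ≤ n := Nat.pos_of_ne_zero (fun h => by subst h; exact a.elim0)
    have h2 : (2 : ℚ) ^ n = 2 * 2 ^ (n - 1) := by
      rw [← pow_succ', Nat.sub_add_cancel hn]
    have h3 : ((2 : ℚ) ^ Fintype.card (Sym2 (Fin n))) ≤ ((parSet a b).card : ℚ) * 2 ^ (n - 1) := by
      exact_mod_cast h
    rw [h2, div_le_iff₀ (by positivity)]
    linarith

lemma card_pairSet_inter_le {z z' : Sym2 (Fin n)} (hz : ¬ z.IsDiag) (hz' : ¬ z'.IsDiag)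
    (hne : z ≠ z') :
    (((pairSet z ∩ pairSet z').card : ℕ) : ℚ)
      ≤ 8 * 2 ^ Fintype.card (Sym2 (Fin n)) / 4 ^ n := by
  have key : (pairSet z ∩ pairSet z').card * 2 ^ (2 * n)
      ≤ 8 * 2 ^ Fintype.card (Sym2 (Fin n)) := by
    induction z using Sym2.ind with
    | _ a b =>
      induction z' using Sym2.ind with
      | _ c d =>
        rw [Sym2.mk_isDiag_iff] at hz hz'
        rw [pairSet_mk, pairSet_mk]
        by_cases hac : a = c
        · subst hac
          have hbd : b ≠ d := by
            rintro rfl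
            exact hne rfl
          exact card_parSet_inter_shared hz hz' hbd
        · by_cases had : a = d
          · subst had
            have hbc : b ≠ c := by
              rintro rfl
              exact hne Sym2.eq_swap
            rw [parSet_comm c a]
            exact card_parSet_inter_shared hz hac hbc
          · by_cases hbc : b = c
            · subst hbc
              rw [parSet_comm a b]
              exact card_parSet_inter_shared (Ne.symm hz) hz' had
            · by_cases hbd : b = d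
              · subst hbd
                rw [parSet_comm a b, parSet_comm c b]
                exact card_parSet_inter_shared (Ne.symm hz) (Ne.symm hz') hac
              · exact card_parSet_inter_disjoint hz hz' had hbc hbd
  have key' : (((pairSet z ∩ pairSet z').card : ℕ) : ℚ) * 4 ^ n
      ≤ 8 * 2 ^ Fintype.card (Sym2 (Fin n)) := by
    have e : (4 : ℚ) ^ n = 2 ^ (2 * n) := by
      rw [pow_mul]
      norm_num
    rw [e]
    exact_mod_cast key
  rw [le_div_iff₀ (by positivity)]
  exact key'

/-- The lower bound for the singularity probability of symmetric sign matrices. -/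
theorem singProb_lower_bound (n : ℕ) :
    ((n : ℚ) * (n - 1)) / 2 ^ n - ((n + 1 : ℚ) * n * (n - 1) * (n - 2)) / 4 ^ n
      ≤ singProb n := by
  classical
  set N := Fintype.card (Sym2 (Fin n)) with hN
  set I : Finset (Sym2 (Fin n)) := Finset.univ.filter (fun z => ¬ z.IsDiag) with hI
  have hIcard : I.card = n.choose 2 := by
    have := Sym2.card_subtype_not_diag (α := Fin n)
    rw [Fintype.card_fin, Fintype.card_subtype] at this
    exact this
  have hbonf := bonferroni_uniform (pairSet (n := n)) ((2 : ℚ) * 2 ^ N / 2 ^ n)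
    (8 * 2 ^ N / 4 ^ n) I
    (fun z hz => card_pairSet_ge (Finset.mem_filter.mp hz).2)
    (fun z hz z' hz' hne =>
      card_pairSet_inter_le (Finset.mem_filter.mp hz).2 (Finset.mem_filter.mp hz').2 hne)
  have hsub : I.biUnion pairSet
      ⊆ Finset.univ.filter (fun g : Sym2 (Fin n) → ℤˣ => (signMatrix n g).det = 0) := by
    intro g hg
    rw [Finset.mem_biUnion] at hg
    obtain ⟨z, hz, hgz⟩ := hg
    rw [Finset.mem_filter]
    refine ⟨Finset.mem_univ _, ?_⟩
    have hz' := (Finset.mem_filter.mp hz).2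
    induction z using Sym2.ind with
    | _ a b =>
      rw [Sym2.mk_isDiag_iff] at hz'
      rw [pairSet_mk, mem_parSet] at hgz
      exact det_eq_zero_of_par hz' hgz
  have hcard : ((I.biUnion pairSet).card : ℚ)
      ≤ ((Finset.univ.filter
          (fun g : Sym2 (Fin n) → ℤˣ => (signMatrix n g).det = 0)).card : ℚ) := by
    exact_mod_cast Finset.card_le_card hsub
  have htotal : (Fintype.card (Sym2 (Fin n) → ℤˣ) : ℚ) = 2 ^ N := by
    rw [Fintype.card_fun, Fintype.card_units_int]
    push_cast
    rfl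
  unfold singProb
  rw [htotal, le_div_iff₀ (by positivity)]
  rw [hIcard] at hbonf
  have hM : ((n.choose 2 : ℕ) : ℚ) = n * (n - 1) / 2 := Nat.cast_choose_two ℚ n
  have hM2 : (((n.choose 2).choose 2 : ℕ) : ℚ)
      = ((n.choose 2 : ℕ) : ℚ) * (((n.choose 2 : ℕ) : ℚ) - 1) / 2 :=
    Nat.cast_choose_two ℚ (n.choose 2)
  rw [hM2, hM] at hbonf
  have h2n : (0 : ℚ) < 2 ^ n := by positivity
  have h4n : (0 : ℚ) < 4 ^ n := by positivity
  have h2N : (0 : ℚ) < 2 ^ N := by positivity
  have e1 : ((n : ℚ) * (n - 1) / 2 ^ n - (n + 1 : ℚ) * n * (n - 1) * (n - 2) / 4 ^ n) * 2 ^ N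
      = 2 * 2 ^ N / 2 ^ n * ((n : ℚ) * (n - 1) / 2)
        - 8 * 2 ^ N / 4 ^ n * ((n : ℚ) * (n - 1) / 2 * ((n : ℚ) * (n - 1) / 2 - 1) / 2) := by
    field_simp
    ring
  rw [e1]
  linarith

end Vale.Agent.Lib.P160
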