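import Vale.Agent.Lib.P160.Par

namespace Vale.Agent.Lib.P160

open Finset

variable {n : ℕ}

open Classical in
/-- The set of sign assignments for which rows `i` and `j` are parallel. -/
noncomputable def parSet (i j : Fin n) : Finset (Sym2 (Fin n) → ℤˣ) :=
  Finset.univ.filter (fun g => Par g i j)

lemma mem_parSet {i j : Fin n} {g : Sym2 (Fin n) → ℤˣ} : g ∈ parSet i j ↔ Par g i j := by
  simp [parSet]

lemma parSet_comm (i j : Fin n) : parSet i j = parSet j i := by
  ext g
  rw [mem_parSet, mem_parSet]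
  exact par_comm

/-- Overwrite row `j` (except the entry `s(j, i)`) by the parallel copy of row `i`. -/
def overwrite (i j : Fin n) (g : Sym2 (Fin n) → ℤˣ) : Sym2 (Fin n) → ℤˣ :=
  Sym2.lift ⟨fun a b => if a = j ∧ b ≠ i then g s(i, i) * g s(i, j) * g s(i, b)
      else if b = j ∧ a ≠ i then g s(i, i) * g s(i, j) * g s(i, a) else g s(a, b), by
    intro a b
    beta_reduce
    by_cases h1 : a = j ∧ b ≠ i <;> by_cases h2 : b = j ∧ a ≠ i
    · obtain ⟨rfl, _⟩ := h1
      obtain ⟨rfl, _⟩ := h2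
      rfl
    · rw [if_pos h1, if_neg h2, if_pos h1]
    · rw [if_neg h1, if_pos h2, if_pos h2]
    · rw [if_neg h1, if_neg h2, if_neg h2, if_neg h1, Sym2.eq_swap]⟩

lemma overwrite_apply (i j a b : Fin n) (g : Sym2 (Fin n) → ℤˣ) :
    overwrite i j g s(a, b) = if a = j ∧ b ≠ i then g s(i, i) * g s(i, j) * g s(i, b)
      else if b = j ∧ a ≠ i then g s(i, i) * g s(i, j) * g s(i, a) else g s(a, b) := rfl

lemma two_pow_le_card_parSet {i j : Fin n} (hij : i ≠ j) :
    2 ^ Fintype.card (Sym2 (Fin n)) ≤ (parSet i j).card * 2 ^ (n - 1) := by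
  have h := le_card_mul_of_retract (parSet i j) (rowSet i j) (overwrite i j) ?_ ?_
  · rwa [card_rowSet] at h
  · intro g
    rw [mem_parSet]
    refine ⟨g s(i, i) * g s(i, j), fun l => ?_⟩
    rw [overwrite_apply, overwrite_apply]
    have e1 := Int.units_mul_self (g s(i, i))
    have e2 := Int.units_mul_self (g s(i, j))
    by_cases hl : l = i
    · subst hl
      have c1 : ¬ (l = j ∧ l ≠ l) := fun h => h.2 rfl
      have c2 : ¬ (j = j ∧ l ≠ l) := fun h => h.2 rfl
      have c3 : ¬ (l = j ∧ j ≠ l) := fun h => hij h.1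
      rw [if_neg c1, if_neg c1, if_neg c2, if_neg c3, Sym2.eq_swap (a := j)]
      calc g s(l, l) = g s(l, l) * (g s(l, j) * g s(l, j)) := by rw [e2, mul_one]
        _ = _ := by simp only [mul_assoc]
    · have c1 : ¬ (i = j ∧ l ≠ i) := fun h => hij h.1
      have c2 : ¬ (l = j ∧ i ≠ i) := fun h => h.2 rfl
      have c3 : j = j ∧ l ≠ i := ⟨rfl, hl⟩
      rw [if_neg c1, if_neg c2, if_pos c3]
      calc g s(i, l) = (g s(i, i) * g s(i, i)) * (g s(i, j) * g s(i, j)) * g s(i, l) := by
            rw [e1, e2, one_mul, one_mul]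
        _ = _ := by simp only [mul_left_comm, mul_assoc]
  · intro g p hp
    induction p using Sym2.ind with
    | _ a b =>
      rw [overwrite_apply]
      have h1 : ¬ (a = j ∧ b ≠ i) := by
        rintro ⟨rfl, hb⟩
        exact hp (mem_rowSet.mpr ⟨b, hb, rfl⟩)
      have h2 : ¬ (b = j ∧ a ≠ i) := by
        rintro ⟨rfl, ha⟩
        exact hp (mem_rowSet.mpr ⟨a, ha, Sym2.eq_swap⟩)
      rw [if_neg h1, if_neg h2]

lemma card_bound_of_determined (S : Finset (Sym2 (Fin n) → ℤˣ)) {a b c d : Fin n}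
    (hbd : b ≠ d)
    (h : ∀ g ∈ S, ∀ g' ∈ S, (∀ p, p ∉ rowSet a b ∪ rowSet c d → g p = g' p) → g = g') :
    S.card * 2 ^ (2 * n) ≤ 8 * 2 ^ Fintype.card (Sym2 (Fin n)) := by
  have h1 := card_mul_le_of_determined S (rowSet a b ∪ rowSet c d) h
  have hc := card_rowSet_union (a := a) (b := b) (c := c) (d := d) hbd
  calc S.card * 2 ^ (2 * n)
      ≤ S.card * 2 ^ ((rowSet a b ∪ rowSet c d).card + 3) := by
        gcongr
        norm_num
    _ = 8 * (S.card * 2 ^ (rowSet a b ∪ rowSet c d).card) := by ring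
    _ ≤ 8 * 2 ^ Fintype.card (Sym2 (Fin n)) := by gcongr

lemma card_parSet_inter_shared {s x y : Fin n} (hsx : s ≠ x) (hsy : s ≠ y) (hxy : x ≠ y) :
    (parSet s x ∩ parSet s y).card * 2 ^ (2 * n)
      ≤ 8 * 2 ^ Fintype.card (Sym2 (Fin n)) := by
  apply card_bound_of_determined (parSet s x ∩ parSet s y) (a := s) (b := x) (c := s) (d := y) hxy
  intro g hg g' hg' hoff
  rw [Finset.mem_inter, mem_parSet, mem_parSet] at hg hg'
  have hrow : ∀ z, g s(s, z) = g' s(s, z) := by
    intro z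
    apply hoff
    rw [Finset.mem_union, not_or]
    exact ⟨not_mem_rowSet_self hsx z, not_mem_rowSet_self hsy z⟩
  have hx : ∀ m, g s(x, m) = g' s(x, m) := by
    intro m
    rw [par_formula hg.1 m, par_formula hg'.1 m, hrow, hrow, hrow]
  have hy : ∀ m, g s(y, m) = g' s(y, m) := by
    intro m
    rw [par_formula hg.2 m, par_formula hg'.2 m, hrow, hrow, hrow]
  funext p
  by_cases hp : p ∈ rowSet s x ∪ rowSet s y
  · rw [Finset.mem_union, mem_rowSet, mem_rowSet] at hp
    rcases hp with ⟨m, _, rfl⟩ | ⟨m, _, rfl⟩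
    · exact hx m
    · exact hy m
  · exact hoff p hp

lemma card_parSet_inter_disjoint {i j k l : Fin n} (hij : i ≠ j) (hkl : k ≠ l)
    (hil : i ≠ l) (hjk : j ≠ k) (hjl : j ≠ l) :
    (parSet i j ∩ parSet k l).card * 2 ^ (2 * n)
      ≤ 8 * 2 ^ Fintype.card (Sym2 (Fin n)) := by
  apply card_bound_of_determined (parSet i j ∩ parSet k l) (a := i) (b := j) (c := k) (d := l) hjl
  intro g hg g' hg' hoff
  rw [Finset.mem_inter, mem_parSet, mem_parSet] at hg hg'
  have hk : ∀ m, m ≠ j → g s(k, m) = g' s(k, m) := by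
    intro m hm
    apply hoff
    rw [Finset.mem_union, not_or]
    refine ⟨?_, not_mem_rowSet_self hkl m⟩
    rw [mem_rowSet_iff_of_ne (Ne.symm hjk)]
    exact fun h => hm h.1
  have hl : ∀ m, m ≠ j → g s(l, m) = g' s(l, m) := by
    intro m hm
    rw [par_formula hg.2 m, par_formula hg'.2 m, hk k (Ne.symm hjk), hk l (Ne.symm hjl),
      hk m hm]
  have hi : ∀ m, g s(i, m) = g' s(i, m) := by
    intro m
    by_cases hml : m = l
    · subst hml
      rw [Sym2.eq_swap]
      exact hl i hij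
    · apply hoff
      rw [Finset.mem_union, not_or]
      refine ⟨not_mem_rowSet_self hij m, ?_⟩
      rw [mem_rowSet_iff_of_ne hil]
      exact fun h => hml h.1
  have hj : ∀ m, g s(j, m) = g' s(j, m) := by
    intro m
    rw [par_formula hg.1 m, par_formula hg'.1 m, hi, hi, hi]
  funext p
  by_cases hp : p ∈ rowSet i j ∪ rowSet k l
  · rw [Finset.mem_union, mem_rowSet, mem_rowSet] at hp
    rcases hp with ⟨m, _, rfl⟩ | ⟨m, _, rfl⟩
    · exact hj m
    · by_cases hmj : m = j
      · subst hmj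
        rw [Sym2.eq_swap]
        exact hj l
      · exact hl m hmj
  · exact hoff p hp

end Vale.Agent.Lib.P160
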