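import Vale.Agent.Lib.P160.Counting
import Vale.Agent.Lib.P160.Defs

namespace Vale.Agent.Lib.P160

open Finset

variable {n : ℕ}

/-- Rows `i` and `j` of the symmetric sign matrix `(g s(i,j))` are parallel. -/
def Par (g : Sym2 (Fin n) → ℤˣ) (i j : Fin n) : Prop :=
  ∃ ε : ℤˣ, ∀ l, g s(i, l) = ε * g s(j, l)

lemma par_symm {g : Sym2 (Fin n) → ℤˣ} {i j : Fin n} (h : Par g i j) : Par g j i := by
  obtain ⟨ε, hε⟩ := h
  refine ⟨ε, fun l => ?_⟩
  rw [hε l, ← mul_assoc, Int.units_mul_self, one_mul]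

lemma par_comm {g : Sym2 (Fin n) → ℤˣ} {i j : Fin n} : Par g i j ↔ Par g j i :=
  ⟨par_symm, par_symm⟩

lemma par_formula {g : Sym2 (Fin n) → ℤˣ} {i j : Fin n} (h : Par g i j) (m : Fin n) :
    g s(j, m) = g s(i, i) * g s(i, j) * g s(i, m) := by
  obtain ⟨ε, hε⟩ := h
  have h1 := hε i
  have h2 := hε m
  rw [Sym2.eq_swap (a := j)] at h1
  rw [h1, h2]
  have e1 := Int.units_mul_self ε
  have e2 := Int.units_mul_self (g s(i, j))
  calc g s(j, m) = (ε * ε) * (g s(i, j) * g s(i, j)) * g s(j, m) := by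
        rw [e1, e2, one_mul, one_mul]
    _ = ε * g s(i, j) * g s(i, j) * (ε * g s(j, m)) := by
        simp only [mul_comm, mul_left_comm, mul_assoc]

lemma det_eq_zero_of_par {g : Sym2 (Fin n) → ℤˣ} {i j : Fin n} (hij : i ≠ j)
    (h : Par g i j) : (signMatrix n g).det = 0 := by
  obtain ⟨ε, hε⟩ := h
  rw [← Matrix.exists_vecMul_eq_zero_iff]
  refine ⟨Pi.single i 1 - ((ε : ℤˣ) : ℤ) • Pi.single j 1, ?_, ?_⟩
  · intro h0
    have := congrFun h0 i
    simp [hij] at this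
  · rw [Matrix.sub_vecMul, Matrix.smul_vecMul, Matrix.single_one_vecMul,
      Matrix.single_one_vecMul]
    funext l
    simp only [Pi.sub_apply, Pi.smul_apply, Matrix.row, signMatrix, Matrix.of_apply,
      smul_eq_mul, Pi.zero_apply]
    rw [hε l]
    push_cast
    ring

/-- The positions of row `b` other than `s(b, a)`. -/
def rowSet (a b : Fin n) : Finset (Sym2 (Fin n)) :=
  (Finset.univ.erase a).image (fun m => s(b, m))

lemma mem_rowSet {a b : Fin n} {p : Sym2 (Fin n)} :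
    p ∈ rowSet a b ↔ ∃ m, m ≠ a ∧ s(b, m) = p := by
  simp [rowSet]

lemma card_rowSet (a b : Fin n) : (rowSet a b).card = n - 1 := by
  unfold rowSet
  rw [Finset.card_image_of_injective]
  · rw [Finset.card_erase_of_mem (Finset.mem_univ a), Finset.card_univ, Fintype.card_fin]
  · intro m m' h
    simp only [Sym2.eq_iff] at h
    rcases h with ⟨_, h⟩ | ⟨h1, h2⟩
    · exact h
    · rw [h2, h1]

/-- positions of row `a` are not in `rowSet a b` when `a ≠ b`. -/
lemma not_mem_rowSet_self {a b : Fin n} (hab : a ≠ b) (z : Fin n) :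
    s(a, z) ∉ rowSet a b := by
  rw [mem_rowSet]
  rintro ⟨m, hm, h⟩
  simp only [Sym2.eq_iff] at h
  rcases h with ⟨h1, _⟩ | ⟨_, h2⟩
  · exact hab h1.symm
  · exact hm h2

lemma mem_rowSet_iff_of_ne {a b c : Fin n} (hcb : c ≠ b) (z : Fin n) :
    s(c, z) ∈ rowSet a b ↔ z = b ∧ c ≠ a := by
  rw [mem_rowSet]
  constructor
  · rintro ⟨m, hm, h⟩
    simp only [Sym2.eq_iff] at h
    rcases h with ⟨h1, _⟩ | ⟨h1, h2⟩
    · exact absurd h1.symm hcb
    · exact ⟨h1.symm, by rw [← h2]; exact hm⟩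
  · rintro ⟨h1, h2⟩
    exact ⟨c, h2, by rw [h1]; exact Sym2.eq_swap⟩

lemma card_rowSet_union {a b c d : Fin n} (hbd : b ≠ d) :
    2 * n ≤ (rowSet a b ∪ rowSet c d).card + 3 := by
  have h1 := Finset.card_union_add_card_inter (rowSet a b) (rowSet c d)
  rw [card_rowSet, card_rowSet] at h1
  have h2 : (rowSet a b ∩ rowSet c d).card ≤ 1 := by
    apply Finset.card_le_one.mpr
    intro p hp q hq
    rw [Finset.mem_inter, mem_rowSet, mem_rowSet] at hp hq
    have key : ∀ r : Sym2 (Fin n), (∃ m, m ≠ a ∧ s(b, m) = r) → (∃ m, m ≠ c ∧ s(d, m) = r) →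
        r = s(b, d) := by
      rintro r ⟨m, _, rfl⟩ ⟨m', _, h⟩
      simp only [Sym2.eq_iff] at h
      rcases h with ⟨h1, _⟩ | ⟨h1, _⟩
      · exact absurd h1.symm hbd
      · rw [← h1]
    rw [key p hp.1 hp.2, key q hq.1 hq.2]
  have hn : 1 ≤ n := Nat.pos_of_ne_zero (fun h => by subst h; exact b.elim0)
  omega

end Vale.Agent.Lib.P160
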